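import Vale.Agent.P158.Final

namespace Vale.Agent.Results.P158.A_full

open MeasureTheory ProbabilityTheory Vale.Agent.P158
open scoped NNReal

theorem result {Ω : Type*} [MeasurableSpace Ω] (P : Measure Ω) [IsProbabilityMeasure P]
    (G : Measure ℝ≥0) [IsProbabilityMeasure G] (hG : ∀ a, G {a} = 0)
    (t : grid.edgeSet → Ω → ℝ≥0)
    (hm : ∀ e, Measurable (t e)) (hind : iIndepFun t P) (hlaw : ∀ e, P.map (t e) = G) :
    ∀ᵐ ω ∂P, ¬ ∃ v : ℤ → ℤ × ℤ, IsBigeodesic (wt fun e => t e ω) v :=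
  final P G hG t hm hind hlaw

end Vale.Agent.Results.P158.A_full
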